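import Vale.Agent.P207.H546.AnaS
import Vale.Agent.P207.H395.TensFr

/-!
# P207: the analytic facts `Ana` on the frame bundle
-/

open scoped Manifold ContDiff ENNReal Topology
open Bundle MeasureTheory Set Filter Topology

noncomputable section

set_option maxSynthPendingDepth 3
set_option linter.unusedSectionVars false

namespace Vale.Agent.P207.H546

open Vale.Agent.P255 (RMetric coefIn Gam Riem innerAt)
open Vale.Agent.P207 Vale.Agent.P207.Q Vale.Agent.P207.H442 Vale.Agent.P207.H824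
open Vale.Agent.P207.H395 (SSp q1 q2 qG1 qG2)
open Vale.Agent.P207.H379 (T1s T2s G1s G2s IsS1 IsS2 rotAct)

variable {n : ℕ} {M : Type} [TopologicalSpace M] [ChartedSpace (EV n) M]
  [IsManifold 𝓘(ℝ, EV n) ∞ M] {g : RMetric (EV n) M}
variable [NeZero n] [CompactSpace M] [T2Space M] [MeasurableSpace M] [BorelSpace M]
  (D : Kat.Dat g) [Nonempty (Fr g)]

/-- vector fields as families -/
def emb1 : G1s (rotAct g) →ₗ[ℝ] (Fin n → SmFr g) :=
  (T1s (frCalc g)).subtype ∘ₗ (G1s (rotAct g)).subtype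

theorem emb1_apply (w : G1s (rotAct g)) :
    emb1 w = ((w : T1s (frCalc g)) : Fin n → SmFr g) := rfl

/-- tensors of rank two as families -/
def emb2 : G2s (rotAct g) →ₗ[ℝ] (Fin n × Fin n → SmFr g) where
  toFun k p := ((k : T2s (frCalc g)) : Fin n → Fin n → SmFr g) p.1 p.2
  map_add' _ _ := rfl
  map_smul' _ _ := rfl

theorem emb2_apply (k : G2s (rotAct g)) (p : Fin n × Fin n) :
    emb2 k p = ((k : T2s (frCalc g)) : Fin n → Fin n → SmFr g) p.1 p.2 := rfl

/-- **the spectral theory of the vector fields** -/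
theorem famSp1 : FamSp (frCalc g) D.I D.h (qG1 D) (emb1 (g := g)) where
  ip w u := (H395.isS1_q1 D).ip w u
  L w i := (H395.isS1_q1 D).L w i
  h_le s := ⟨1, zero_le_one, fun w i => by
    rw [one_mul]
    exact H395.h_le_q1 D s w i⟩

/-- **the spectral theory of the symmetric tensors of rank two** -/
theorem famSp2 : FamSp (frCalc g) D.I D.h (qG2 D) (emb2 (g := g)) where
  ip k l := by
    rw [Fintype.sum_prod_type]
    exact (H395.isS2_q2 D).ip k l
  L k p := (H395.isS2_q2 D).L k p.1 p.2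
  h_le s := ⟨1, zero_le_one, fun k p => by
    rw [one_mul]
    exact H395.h_le_q2 D s k p.1 p.2⟩

/-- **the analytic facts on the frame bundle** -/
theorem anaF {TT : Submodule ℝ (Fin n → Fin n → SmFr g)} {VV : Submodule ℝ (Fin n → SmFr g)}
    (hTT : ∀ k, k ∈ TT ↔ Kat.GT2 k) (hVV : ∀ w, w ∈ VV ↔ Kat.GT1 w) :
    Ana (frCalc g) D.I D.h TT VV :=
  anaS (H734.isInt_I D) (H734.iPos_I D).nonneg (famSp1 D) (famSp2 D)
    (fun w hw => H379.t1_of_GT1 ((hVV w).1 hw))
    (fun k hk => H379.t2_of_GT2 ((hTT k).1 hk))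
    (fun k hk => ((hTT k).1 hk).1)
    (fun w hw => ⟨H379.mk1 ((hVV w).1 hw), rfl⟩)
    (fun x => (hVV _).2 (H379.gt1_of_mem x))
    (fun k hk => ⟨H379.mk2 ((hTT k).1 hk), fun _ _ => rfl⟩)
    (fun x => (hTT _).2 (H379.gt2_of_mem x))

end Vale.Agent.P207.H546
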