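import Vale.Agent.P207.H747.Fr
import Vale.Agent.P207.H379.KatB
import Vale.Agent.P207.H662.QF2

/-!
# P207 / H546: functions on the frame bundle invariant under the rotations and the frame flow

`dat_zero_of_H`: a function on the base of mean zero whose derivative vanishes is zero.
`trk_eq_zero`: the form used for the trace of a symmetric tensor in block LOW.
-/

open scoped Manifold ContDiff ENNReal Topology
open Bundle MeasureTheory Set Filter

set_option maxSynthPendingDepth 3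
set_option linter.unusedSectionVars false

noncomputable section

namespace Vale.Agent.P207.H546

open Vale.Agent.P255 (RMetric coefIn Gam Riem IsGeo Metric trans coefL expg geo Npc chris chrisB
  IsMetricOn)
open Vale.Agent.P207 Vale.Agent.P207.D1 Vale.Agent.P207.Q Vale.Agent.P207.Q.H892
  Vale.Agent.P207.Q.H743 Vale.Agent.P207.Q.H545 Vale.Agent.P207.Q.H717 Vale.Agent.P207.Q.H130
open Vale.Agent.P207.H442 (frCalc Hd ev hasDerivAt_Hd)
open Vale.Agent.P207.H379 (OnG rotAll rotE ev_rotE ev_rotE_eq gT2_iff)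

section Geo

variable {n : ℕ} {M : Type} [TopologicalSpace M] [ChartedSpace (EV n) M]
  [IsManifold 𝓘(ℝ, EV n) ∞ M] {g : RMetric (EV n) M}
variable [NeZero n] [CompactSpace M] [T2Space M] [ConnectedSpace M]

/-- every point is the base point of a frame obtained from `f₀` by a rotation and the frame flow -/
theorem exists_rot_flow [Nonempty (Fr g)] (hN : NegCurvature g) (f₀ : Fr g) (x : M) :
    ∃ (A : OnG n) (r : ℝ),
      (Fl.CSys.flow (horVF g (Pi.single (0 : Fin n) 1)) r (Fr.rot A f₀)).pt = x := by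
  obtain ⟨v, hv⟩ : ∃ v : EV n, expg (mt g) f₀.pt v = x := by
    have h1 : LocallyPathConnectedSpace M := ChartedSpace.locallyPathConnectedSpace (EV n) M
    have h2 : PathConnectedSpace M := pathConnectedSpace_iff_connectedSpace.2 inferInstance
    exact ⟨_, (sys g (npc_of_neg hN)).e_vec
      (Path.Homotopic.Quotient.mk (PathConnectedSpace.somePath f₀.pt x))⟩
  set Φ := Fl.CSys.flow (horVF g (Pi.single (0 : Fin n) 1)) with hΦ
  have hflow : IsHorFlow g (Pi.single (0 : Fin n) 1) Φ := isHorFlow_flow g _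
  by_cases hv0 : v = 0
  · refine ⟨1, 0, ?_⟩
    rw [hflow.zero, Fr.rot_one, ← hv, hv0]
    exact ((sys g (npc_of_neg hN)).zero f₀.pt).symm
  have hpos : 0 < innerB g f₀.pt v v := g.pos f₀.pt v hv0
  set r := Real.sqrt (innerB g f₀.pt v v) with hr
  have hr0 : 0 < r := Real.sqrt_pos.2 hpos
  have hr2 : r * r = innerB g f₀.pt v v := Real.mul_self_sqrt hpos.le
  have hunit : innerB g f₀.pt (r⁻¹ • v) (r⁻¹ • v) = 1 := by
    have h1 : innerB g f₀.pt (r⁻¹ • v) (r⁻¹ • v) = r⁻¹ * (r⁻¹ * innerB g f₀.pt v v) := by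
      simp only [map_smul, smul_apply, smul_eq_mul]
    rw [h1, ← hr2]
    field_simp
  obtain ⟨f₁, hf₁⟩ := exists_frame_ut (g := g) ⟨⟨f₀.pt, r⁻¹ • v⟩, hunit⟩
  have hpt : f₁.pt = f₀.pt := congrArg (fun p : UT g => p.pt) hf₁
  have he : f₁.e 0 = r⁻¹ • v := by
    obtain ⟨⟨x₁, e₁⟩, h₁⟩ := f₁
    change x₁ = f₀.pt at hpt
    subst hpt
    have h2 := congrArg Subtype.val hf₁
    have h3 := eq_of_heq (Bundle.TotalSpace.mk.inj h2).2
    exact h3
  obtain ⟨A, hA⟩ := Fr.exists_rot (g := g) hpt.symm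
  refine ⟨A, r, ?_⟩
  rw [hA, hflow.pt_eq, he, ← P255.expg_smul, smul_smul, mul_inv_cancel₀ hr0.ne', one_smul, hpt]
  exact hv

/-- a function invariant under all rotations and under the frame flow is constant -/
theorem const_of_H [Nonempty (Fr g)] (hN : NegCurvature g) {f : SmFr g}
    (hf : f ∈ (rotAll g).scal) (hH : (frCalc g).H 0 f = 0) (p q : Fr g) :
    (f : C(Fr g, ℝ)) p = (f : C(Fr g, ℝ)) q := by
  have hrot : ∀ (A : OnG n) (p : Fr g), (f : C(Fr g, ℝ)) (Fr.rot A p) = (f : C(Fr g, ℝ)) p :=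
    fun A p => ev_rotE_eq.1 (hf A) p
  have hflow : IsHorFlow g (Pi.single (0 : Fin n) 1)
    (Fl.CSys.flow (horVF g (Pi.single (0 : Fin n) 1))) := isHorFlow_flow g _
  have hfl : ∀ (t : ℝ) (p : Fr g), (f : C(Fr g, ℝ))
      (Fl.CSys.flow (horVF g (Pi.single (0 : Fin n) 1)) t p) = (f : C(Fr g, ℝ)) p := by
    intro t p
    have h0 : Hd g 0 f = 0 := hH
    have hd : ∀ s, HasDerivAt (fun s => (f : C(Fr g, ℝ))
        (Fl.CSys.flow (horVF g (Pi.single (0 : Fin n) 1)) s p)) 0 s := by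
      intro s
      have h1 := hasDerivAt_Hd hflow f p s
      rw [h0] at h1
      exact h1
    have h5 := is_const_of_deriv_eq_zero (fun s => (hd s).differentiableAt)
      (fun s => (hd s).deriv) t 0
    rw [h5, hflow.zero]
  obtain ⟨A, r, h1⟩ := exists_rot_flow hN p q.pt
  obtain ⟨B, hB⟩ := Fr.exists_rot (g := g) h1
  rw [← hB, hrot, hfl, hrot]

/-- a function on the base of mean zero whose derivative vanishes is zero -/
theorem dat_zero_of_H [Nonempty (Fr g)] [MeasurableSpace M] [BorelSpace M] (D : Kat.Dat g)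
    (hN : NegCurvature g) {f : SmFr g} (hf : f ∈ (rotAll g).scal)
    (hH : (frCalc g).H 0 f = 0) (hI : D.I f = 0) : f = 0 := by
  obtain ⟨p₀⟩ := (inferInstance : Nonempty (Fr g))
  have hc : ∀ p, (f : C(Fr g, ℝ)) p = (f : C(Fr g, ℝ)) p₀ := fun p => const_of_H hN hf hH p p₀
  have h1 : D.I f = (f : C(Fr g, ℝ)) p₀ := by
    change ∫ p, (f : C(Fr g, ℝ)) p ∂D.mP = _
    have h2 : ∫ p, (f : C(Fr g, ℝ)) p ∂D.mP = ∫ _, (f : C(Fr g, ℝ)) p₀ ∂D.mP :=
      integral_congr_ae (Eventually.of_forall hc)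
    rw [h2, integral_const]
    simp
  rw [h1] at hI
  apply Subtype.ext
  ext p
  rw [hc p, hI]
  rfl

end Geo

section Trk

variable {m : ℕ} {M : Type} [TopologicalSpace M] [ChartedSpace (EV (m + 1)) M]
  [IsManifold 𝓘(ℝ, EV (m + 1)) ∞ M] {g : RMetric (EV (m + 1)) M}
variable [CompactSpace M] [T2Space M] [ConnectedSpace M] [MeasurableSpace M] [BorelSpace M]
  [Nonempty (Fr g)]

/-- **the hypothesis `hc` of `low_of_cert`**: a symmetric tensor whose trace is constant of mean
zero has trace zero -/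
theorem trk_eq_zero (D : Kat.Dat g) (hN : NegCurvature g)
    {k : Fin (m + 1) → Fin (m + 1) → SmFr g} (hk : Kat.GT2 k)
    (htr : D.I (∑ i, k i i) = 0) (hH : ∀ i, (frCalc g).H i (H662.trk k) = 0) :
    H662.trk k = 0 :=
  dat_zero_of_H D hN (H158.RotAct.tr_mem (gT2_iff.1 hk).2) (hH 0) htr

end Trk

end Vale.Agent.P207.H546
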