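import Vale.Agent.P207.H546.FinDim
import Vale.Agent.P207.H440.FrLC
import Vale.Agent.P207.H955.FrN2
import Vale.Agent.P207.H955.RelSys

/-!
# P207: finite dimension of the eigenspaces, on the frame bundle
-/

open scoped Manifold ContDiff ENNReal Topology
open Bundle MeasureTheory Set Filter Topology Metric

noncomputable section

set_option maxSynthPendingDepth 3
set_option linter.unusedSectionVars false

namespace Vale.Agent.P207.H546

open Vale.Agent.P207 Vale.Agent.P207.Q
open Vale.Agent.P255 (RMetric coefIn Gam Riem IsGeo Metric Npc ExpSys toMetric geo expg cc trans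
  IsGeodesic coefL chris chrisB IsMetricOn covD)
open Vale.Agent.P207.H442 (frCalc)

variable {n : ℕ} {M : Type} [TopologicalSpace M] [ChartedSpace (EV n) M]
  [IsManifold 𝓘(ℝ, EV n) ∞ M] {g : RMetric (EV n) M}
variable [NeZero n] [CompactSpace M] [T2Space M] [Nonempty (Fr g)]
  {m : Measure (UT g)} {mP : Measure (Fr g)} {φ : ℝ → UT g → UT g}

theorem fr_loc (hP : IsMP m mP) (hφ : IsGeoFlow g φ)
    (hmp : ∀ t, MeasurePreserving (φ t) m m) : (H955.frNSys hP hφ hmp).Loc :=
  H440.frN_loc (horFlows g) hP hφ hmp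

theorem fr_cl (hP : IsMP m mP) (hφ : IsGeoFlow g φ)
    (hmp : ∀ t, MeasurePreserving (φ t) m m) : (H955.frNSys hP hφ hmp).CL :=
  H440.frN_cl (horFlows g) hP hφ hmp

/-- **(FD) on the frame bundle** -/
theorem fd_smFr (hP : IsMP m mP) (hφ : IsGeoFlow g φ) (hmp : ∀ t, MeasurePreserving (φ t) m m)
    (mu : ℝ) (V : Submodule ℝ (SmFr g))
    (h : ∀ f ∈ V, ∑ i, (frCalc g).H i ((frCalc g).H i f) +
      ∑ a, ∑ b, (frCalc g).V a b ((frCalc g).V a b f) = mu • f) : FiniteDimensional ℝ V := by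
  have := hP.prob
  have := hP.openPos
  have hR : (H571.toHSys (H955.frNSys hP hφ hmp)).Rel := by
    have h1 := H955.frHSys_rel hP hφ hmp (fr_loc hP hφ hmp)
    exact h1
  refine fd_sub (S := H955.frNSys hP hφ hmp) hR mu V fun f hf => ?_
  have h1 := h f hf
  rw [Fintype.sum_sum_type, Fintype.sum_prod_type]
  exact h1

/-- **(FD) for 2-tensors** -/
theorem fd_smFr_T2 (hP : IsMP m mP) (hφ : IsGeoFlow g φ)
    (hmp : ∀ t, MeasurePreserving (φ t) m m) (mu : ℝ) {κ : Type} [Fintype κ]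
    (V : Submodule ℝ (κ → SmFr g))
    (h : ∀ f ∈ V, ∀ α, ∑ i, (frCalc g).H i ((frCalc g).H i (f α)) +
      ∑ a, ∑ b, (frCalc g).V a b ((frCalc g).V a b (f α)) = mu • f α) :
    FiniteDimensional ℝ V := by
  have := hP.prob
  have := hP.openPos
  have hR : (Qs (H955.frNSys hP hφ hmp) κ).Rel :=
    H395.HSys.pi_Rel (H955.frHSys_rel hP hφ hmp (fr_loc hP hφ hmp))
  refine fd_funs (S := H955.frNSys hP hφ hmp) hR mu V.subtype Subtype.val_injective
    fun f α => ?_
  have h1 := h f f.2 α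
  rw [Fintype.sum_sum_type, Fintype.sum_prod_type]
  exact h1

end Vale.Agent.P207.H546
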